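-- RD-BASE 4617c8b68530c4b2395a1bdd42afbb221476d2cc
import Vale.Agent.P028.MathlibUsed
import Vale.Agent.P028.RD.FQ.BMDefs
attribute [-instance] ProperSMul.toContinuousSMul IsTopologicalTorsor.toContinuousSMul IdemSemiring.toCanonicallyOrderedAdd IdemSemiring.toMulLeftMono IdemSemiring.toMulRightMono AddQuantale.instAddLeftMono AddQuantale.instAddRightMono Quantale.instMulLeftMono Quantale.instMulRightMono FiniteDimensional.rclike_to_real IsScalarTower.complexToReal FiniteDimensional.complexToReal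

/-!
# The full block M: the cover and the assembly
-/

namespace Vale.P028.SK

open Finset CF

variable {g : Cfg}

/-- the first change of one of two fractions -/
theorem first_change' {i t q r : ℕ} {F G : ℚ} {b b' : Bool} (hit : i ≤ t)
    (h1 : st g i q = some (F, b)) (h2 : st g i r = some (G, b'))
    (h : (¬ ∃ c, st g t q = some (F, c)) ∨ ¬ ∃ c, st g t r = some (G, c)) :
    ∃ s, i < s ∧ s ≤ t ∧ Un g i s q F ∧ Un g i s r G ∧
      ((¬ ∃ c, st g s q = some (F, c)) ∨ ¬ ∃ c, st g s r = some (G, c)) ∧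
      (PA.Sw g.K.P (dat g) s q ∨ PA.Sw g.K.P (dat g) s r) := by
  classical
  have hex : ∃ s, i ≤ s ∧ ((¬ ∃ c, st g s q = some (F, c)) ∨ ¬ ∃ c, st g s r = some (G, c)) :=
    ⟨t, hit, h⟩
  set s := Nat.find hex with hs
  obtain ⟨h3, h4⟩ := Nat.find_spec hex
  rw [← hs] at h3 h4
  have h5 : s ≤ t := Nat.find_min' hex ⟨hit, h⟩
  have h6 : ∀ j, i ≤ j → j < s → (∃ c, st g j q = some (F, c)) ∧ ∃ c, st g j r = some (G, c) := by
    intro j hj hjs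
    have h7 := Nat.find_min hex (m := j) (by rw [← hs]; exact hjs)
    push Not at h7
    exact h7 hj
  have h7 : i < s := by
    refine lt_of_le_of_ne h3 fun he => ?_
    rw [← he] at h4
    rcases h4 with h4 | h4
    · exact h4 ⟨b, h1⟩
    · exact h4 ⟨b', h2⟩
  refine ⟨s, h7, h5, fun j hj hjs => (h6 j hj hjs).1, fun j hj hjs => (h6 j hj hjs).2, h4, ?_⟩
  obtain ⟨⟨c, hc⟩, c', hc'⟩ := h6 (s - 1) (by omega) (by omega)
  rcases h4 with h4 | h4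
  · exact Or.inl (Sw_of_change (by omega) hc h4)
  · exact Or.inr (Sw_of_change (by omega) hc' h4)

/-- a fraction of small complexity is never left -/
theorem K0c_le_of_Sw (hJ : JsOK g.K g.Js) (hX : g.Js ≤ g.X) {i s q : ℕ} {F : ℚ}
    (his : i < s) (hU : Un g i s q F) (h : PA.Sw g.K.P (dat g) s q) :
    K0c g ≤ CF.KK g i q F := by
  obtain ⟨-, hW, -⟩ := h
  obtain ⟨F', F'', h1, -, -, -, h5⟩ := hW
  obtain ⟨b, hb⟩ := hU (s - 1) (by omega) (by omega)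
  have h1' : st g (s - 1) q = some (F', false) := h1
  rw [hb, Option.some.injEq, Prod.mk.injEq] at h1'
  rw [← h1'.1] at h5
  have hc4 := g.K.P.c4_pos
  have h6 : Real.log (zs g) ≤ (PA.KK (dat g) s q F) ^ g.K.P.c4 := by
    refine le_trans ?_ h5
    have h7 : (zs g : ℝ) ≤ (dat g).z s := by
      change (zs g : ℝ) ≤ (z g s : ℝ)
      exact_mod_cast zs_le_z hJ hX s
    by_cases h8 : (zs g : ℝ) = 0
    · rw [h8, Real.log_zero]
      exact Real.log_nonneg (by change (1 : ℝ) ≤ (z g s : ℝ); exact_mod_cast one_le_z g s)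
    · exact Real.log_le_log (lt_of_le_of_ne (Nat.cast_nonneg _) (Ne.symm h8)) h7
  have h7 : CF.KK g s q F ≤ CF.KK g i q F := KK_anti his.le
  have h8 : (1 : ℝ) ≤ PA.KK (dat g) s q F := PA.one_le_KK _ _ _ _
  have h9 : K0c g ≤ ((PA.KK (dat g) s q F) ^ g.K.P.c4) ^ (1 / g.K.P.c4) := by
    unfold K0c
    by_cases h10 : 0 ≤ Real.log (zs g)
    · exact Real.rpow_le_rpow h10 h6 (by positivity)
    · exact absurd (Real.log_natCast_nonneg (zs g)) h10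
  refine h9.trans (le_trans (le_of_eq ?_) h7)
  rw [← Real.rpow_mul (by linarith), mul_one_div_cancel hc4.ne', Real.rpow_one]

theorem mrs_swap (hV : g.V ⊆ Icc 1 (N g)) {i q r : ℕ} (hz : zs g ≤ z g i) (hq : q ∈ g.V)
    (hr : r ∈ g.V) (hc : Clean g (z g i) q r) (d : ℕ → ℕ → ℝ) (t B : ℕ) :
    mrs g d t B i r q = mrs g d t B i q r := by
  unfold mrs
  rw [rcof_swap hV hz hq hr hc r q, rcof_swap hV hz hq hr hc q r, max_comm]

theorem Tr_swap (hV : g.V ⊆ Icc 1 (N g)) {i q r : ℕ} (hz : zs g ≤ z g i) (hq : q ∈ g.V)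
    (hr : r ∈ g.V) (hc : Clean g (z g i) q r) : Tr g i r q ↔ Tr g i q r := by
  unfold Tr
  rw [rcof_swap hV hz hq hr hc r q, rcof_swap hV hz hq hr hc q r]
  exact and_comm

/-- **The cover of the aligned triples of small level.** -/
theorem TA_cover (hJ : JsOK g.K g.Js) (hX : g.Js ≤ g.X) (hV : g.V ⊆ Icc 1 (N g))
    (d : ℕ → ℕ → ℝ) {i q r : ℕ} {n : ℤ} (hi : i ≤ nst g) (hq : q ∈ g.V) (hr : r ∈ g.V)
    (hT : TAj g i q r n) (hD : Dl g q r ≤ z g i) :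
    TAs g i q r n ∨ TAr g d i q r n ∨ TAf g d i q r n ∨ TAo g i q r n ∨
      ∃ s ∈ Ioc i (nst g), LkD g d i s q r n ∨ LkD g d i s r q (-n) := by
  by_cases hTr : Tr g i q r
  · exact Or.inl ⟨hT, hTr⟩
  right
  obtain ⟨F, b, G, b', h1, h2, -⟩ := hT.1
  have hz : zs g ≤ z g i := zs_le_z hJ hX i
  have hc : Clean g (z g i) q r := hT.2.2.1
  have hcomm : KS g i r q G F = KS g i q r F G := max_comm _ _
  have hB := BB_swap g i q r F G
  set K := KS g i q r F G with hK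
  -- the case of a late first change
  have late : ∀ s, i < s → s ≤ nst g + 1 → Un g i s q F → Un g i s r G →
      (s ≤ nst g → (¬ ∃ c, st g s q = some (F, c)) ∨ ¬ ∃ c, st g s r = some (G, c)) →
      z g s ≤ yK (zs g) K → K0c g ≤ K → TAr g d i q r n ∨ TAf g d i q r n := by
    intro s hs1 hs2 hUq hUr hs3 hzy hK1
    by_cases hK0 : K ^ (1 / 8 : ℝ) ≤ mrs g d (yK (zs g) K) (BB g i q r F G) i q r
    · refine Or.inr ⟨hT, hD, hTr, F, G, ⟨b, h1⟩, ⟨b', h2⟩, ?_, hK1, hK0⟩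
      intro j hj1 hj2 hj3
      have hjs : j < s := by
        by_contra hcon
        exact absurd (lt_of_lt_of_le hj3 ((z_anti g (not_lt.1 hcon)).trans hzy)) (lt_irrefl _)
      exact ⟨hUq j hj1 hjs, hUr j hj1 hjs⟩
    · refine Or.inl ⟨hT, hD, hTr, F, G, s, hs1, hs2, hUq, hUr, hs3, hK1, ?_⟩
      rw [max_eq_left hzy]
      exact not_le.1 hK0
  by_cases hex : ∃ t, i ≤ t ∧ t ≤ nst g ∧
      ((¬ ∃ c, st g t q = some (F, c)) ∨ ¬ ∃ c, st g t r = some (G, c))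
  · obtain ⟨t, ht1, ht2, ht3⟩ := hex
    obtain ⟨s, hs1, hs2, hUq, hUr, hs3, hs4⟩ := first_change' ht1 h1 h2 ht3
    have hKK : K0c g ≤ K := by
      rcases hs4 with h | h
      · exact (K0c_le_of_Sw hJ hX hs1 hUq h).trans (le_max_left _ _)
      · exact (K0c_le_of_Sw hJ hX hs1 hUr h).trans (le_max_right _ _)
    by_cases hzy : yK (zs g) K < z g s
    · by_cases hr8 : K ^ (1 / 8 : ℝ) ≤ mrs g d (z g s) (BB g i q r F G) i q r
      · refine Or.inr (Or.inr (Or.inr ⟨s, mem_Ioc.2 ⟨hs1, by omega⟩, ?_⟩))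
        rcases hs4 with h | h
        · exact Or.inl ⟨hT, hD, hTr, F, G, hUq, hUr, h, hzy, hr8⟩
        · refine Or.inr ⟨hT.swap hr, by rw [Dl_swap]; exact hD,
            fun h' => hTr ((Tr_swap hV hz hq hr hc).1 h'), G, F, hUr, hUq, h, ?_, ?_⟩
          · rw [hcomm]
            exact hzy
          · rw [hcomm, hB, mrs_swap hV hz hq hr hc]
            exact hr8
      · refine Or.inl ⟨hT, hD, hTr, F, G, s, hs1, by omega, hUq, hUr, fun _ => hs3, hKK, ?_⟩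
        rw [max_eq_right hzy.le]
        exact not_le.1 hr8
    · rcases late s hs1 (by omega) hUq hUr (fun _ => hs3) (not_lt.1 hzy) hKK with h | h
      · exact Or.inl h
      · exact Or.inr (Or.inl h)
  · push Not at hex
    have hUq : Un g i (nst g + 1) q F := fun j hj1 hj2 => (hex j hj1 (by omega)).1
    have hUr : Un g i (nst g + 1) r G := fun j hj1 hj2 => (hex j hj1 (by omega)).2
    have hzl : z g (nst g + 1) ≤ yK (zs g) K := by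
      rw [z_last hJ hX]
      exact zs_le_yK _ _
    rcases lt_or_ge K (K0c g) with hK0 | hK0
    · exact Or.inr (Or.inr (Or.inl ⟨hT, hD, hTr, F, G, hUq, hUr, hK0⟩))
    rcases late (nst g + 1) (by omega) le_rfl hUq hUr (fun h => absurd h (by omega)) hzl hK0
      with h | h
    · exact Or.inl h
    · exact Or.inr (Or.inl h)

theorem Adm.vt {g : Cfg} (h : Adm g) (hX : 16 ≤ g.X) : VT g 1 :=
  ⟨hX, le_rfl, h.win, fun n hn => by rw [one_mul]; exact h.thin n hn,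
    by rw [one_mul]; exact h.mass⟩

theorem rpow_half_le_inv_log' {x : ℝ} (hx : 1 < x) : x ^ (-(1 / 2) : ℝ) ≤ (Real.log x)⁻¹ := by
  have h0 : 0 < x := by linarith
  have hl : 0 < Real.log x := Real.log_pos hx
  have h1 : Real.log x ≤ x ^ (1 / 2 : ℝ) := by
    have h2 : Real.log (x ^ (1 / 2 : ℝ)) ≤ x ^ (1 / 2 : ℝ) / Real.exp 1 := by
      have h3 := Real.add_one_le_exp (Real.log (x ^ (1 / 2 : ℝ)) - 1)
      rw [Real.exp_sub, Real.exp_log (by positivity)] at h3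
      linarith
    rw [Real.log_rpow h0] at h2
    have h4 : (2 : ℝ) ≤ Real.exp 1 := by
      have := Real.add_one_le_exp (1 : ℝ)
      linarith
    have h5 : x ^ (1 / 2 : ℝ) / Real.exp 1 ≤ x ^ (1 / 2 : ℝ) / 2 :=
      div_le_div_of_nonneg_left (by positivity) (by norm_num) h4
    linarith
  rw [Real.rpow_neg h0.le]
  exact inv_anti₀ hl h1

/-- the far part, summed over the stages -/
theorem EnS_far_sum {Cf : ℝ} (hCf : 0 < Cf) (hJ : JsOK g.K g.Js) (hX : g.Js ≤ g.X)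
    (hC2 : 2 ≤ g.K.C2) {δ : ℕ → ℕ → ℝ} (hδ : Om δ) {S : Finset ℕ}
    (hΦ0 : 0 ≤ ∑ q ∈ S, f g q) (hΦ1 : ∑ q ∈ S, f g q ≤ 1)
    (hfar : ∀ i : ℕ, EnS g S δ (fun q r n => TAj g i q r n ∧ (z g i : ℝ) < Dl g q r) ≤
      Cf * (z g i : ℝ) ^ (-(1 / 2) : ℝ) * (∑ q ∈ S, f g q) ^ 2) :
    EnS g S δ (fun q r n => ∃ i ∈ Icc 1 (nst g),
      (TAj g i q r n ∧ (z g i : ℝ) < Dl g q r)) ≤ Cf * 2 := by
  refine (EnS_exists hδ S (Icc 1 (nst g))
    (fun i q r n => TAj g i q r n ∧ (z g i : ℝ) < Dl g q r)).trans ?_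
  have h6 : ∀ i ∈ Icc 1 (nst g), EnS g S δ
      (fun q r n => TAj g i q r n ∧ (z g i : ℝ) < Dl g q r) ≤ Cf * (Real.log (z g i))⁻¹ := by
    intro i hi
    obtain ⟨h1, h2⟩ := mem_Icc.1 hi
    have hl : 1 ≤ Real.log (z g i) := le_trans (one_le_pow₀ (by norm_num)) (log_z_geom hJ hX hC2 h1 h2)
    refine (hfar i).trans ?_
    have h7 : (z g i : ℝ) ^ (-(1 / 2) : ℝ) ≤ (Real.log (z g i))⁻¹ := by
      refine rpow_half_le_inv_log' ?_
      by_contra hcon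
      have h1 : Real.log (z g i) ≤ 0 :=
        Real.log_nonpos (Nat.cast_nonneg _) (not_lt.1 hcon)
      linarith
    have h8 : (∑ q ∈ S, f g q) ^ 2 ≤ 1 := pow_le_one₀ hΦ0 hΦ1
    have h9 : 0 ≤ (z g i : ℝ) ^ (-(1 / 2) : ℝ) := by positivity
    calc Cf * (z g i : ℝ) ^ (-(1 / 2) : ℝ) * (∑ q ∈ S, f g q) ^ 2
        ≤ Cf * (z g i : ℝ) ^ (-(1 / 2) : ℝ) * 1 :=
          mul_le_mul_of_nonneg_left h8 (by positivity)
      _ ≤ Cf * (Real.log (z g i))⁻¹ := by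
          rw [mul_one]
          exact mul_le_mul_of_nonneg_left h7 hCf.le
  refine (sum_le_sum h6).trans ?_
  rw [← mul_sum]
  exact mul_le_mul_of_nonneg_left (sum_inv_log_z hJ hX hC2) hCf.le

/-- seven classes -/
theorem EnS_or7 {δ : ℕ → ℕ → ℝ} (hδ : Om δ) (S : Finset ℕ)
    (T1 T2 T3 T4 T5 T6 T7 : ℕ → ℕ → ℤ → Prop) :
    EnS g S δ (fun q r n => T1 q r n ∨ T2 q r n ∨ T3 q r n ∨ T4 q r n ∨ T5 q r n ∨ T6 q r n ∨
      T7 q r n) ≤ EnS g S δ T1 + (EnS g S δ T2 + (EnS g S δ T3 + (EnS g S δ T4 +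
      (EnS g S δ T5 + (EnS g S δ T6 + EnS g S δ T7))))) := by
  refine (EnS_or g hδ S T1 _).trans (add_le_add le_rfl ?_)
  refine (EnS_or g hδ S T2 _).trans (add_le_add le_rfl ?_)
  refine (EnS_or g hδ S T3 _).trans (add_le_add le_rfl ?_)
  refine (EnS_or g hδ S T4 _).trans (add_le_add le_rfl ?_)
  refine (EnS_or g hδ S T5 _).trans (add_le_add le_rfl ?_)
  exact EnS_or g hδ S T6 T7

/-- **The cover of the energy.** -/
theorem EnS_BM_cover (hJ : JsOK g.K g.Js) (hX : g.Js ≤ g.X) (hV : g.V ⊆ Icc 1 (N g))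
    {δ : ℕ → ℕ → ℝ} (hδ : Om δ) {S : Finset ℕ} (hS : S ⊆ g.V) :
    EnS g S δ (fun q r n => TA g q r n ∨ TS g q r n) ≤
      EnS g S δ (fun q r n => ∃ i ∈ Icc 1 (nst g), TAs g i q r n) +
      (EnS g S δ (fun q r n => ∃ i ∈ Icc 1 (nst g), TAr g δ i q r n) +
      (EnS g S δ (fun q r n => ∃ i ∈ Icc 1 (nst g), TAf g δ i q r n) +
      (EnS g S δ (fun q r n => ∃ i ∈ Icc 1 (nst g), TAo g i q r n) +
      (2 * EnS g S δ (fun q r n => ∃ i ∈ Icc 1 (nst g), ∃ s ∈ Ioc i (nst g),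
        LkD g δ i s q r n) +
      (EnS g S δ (fun q r n => ∃ i ∈ Icc 1 (nst g),
        (TAj g i q r n ∧ (z g i : ℝ) < Dl g q r)) + EnS g S δ (TS g)))))) := by
  have hcov : EnS g S δ (fun q r n => TA g q r n ∨ TS g q r n) ≤
      EnS g S δ (fun q r n => (∃ i ∈ Icc 1 (nst g), TAs g i q r n) ∨
        (∃ i ∈ Icc 1 (nst g), TAr g δ i q r n) ∨
        (∃ i ∈ Icc 1 (nst g), TAf g δ i q r n) ∨
        (∃ i ∈ Icc 1 (nst g), TAo g i q r n) ∨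
        ((∃ i ∈ Icc 1 (nst g), ∃ s ∈ Ioc i (nst g), LkD g δ i s q r n) ∨
        (∃ i ∈ Icc 1 (nst g), ∃ s ∈ Ioc i (nst g), LkD g δ i s r q (-n))) ∨
        (∃ i ∈ Icc 1 (nst g), (TAj g i q r n ∧ (z g i : ℝ) < Dl g q r)) ∨ TS g q r n) := by
    refine EnS_mono g hδ fun q hq r hr n hn hTT => ?_
    rcases hTT with hTT | hTT
    · obtain ⟨i, g1, g2, g3, g4, g5, g6⟩ := hTT
      have hTj : TAj g i q r n := ⟨g3, g4, g5, g6⟩
      have hi : i ∈ Icc 1 (nst g) := mem_Icc.2 ⟨g1, g2⟩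
      rcases le_or_gt (Dl g q r) (z g i) with hD | hD
      · rcases TA_cover hJ hX hV δ g2 (hS hq) (hS (mem_of_mem_erase hr)) hTj hD with
          h | h | h | h | ⟨s, hs, h | h⟩
        · exact Or.inl ⟨i, hi, h⟩
        · exact Or.inr (Or.inl ⟨i, hi, h⟩)
        · exact Or.inr (Or.inr (Or.inl ⟨i, hi, h⟩))
        · exact Or.inr (Or.inr (Or.inr (Or.inl ⟨i, hi, h⟩)))
        · exact Or.inr (Or.inr (Or.inr (Or.inr (Or.inl (Or.inl ⟨i, hi, s, hs, h⟩)))))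
        · exact Or.inr (Or.inr (Or.inr (Or.inr (Or.inl (Or.inr ⟨i, hi, s, hs, h⟩)))))
      · exact Or.inr (Or.inr (Or.inr (Or.inr (Or.inr (Or.inl ⟨i, hi, hTj, hD⟩)))))
    · exact Or.inr (Or.inr (Or.inr (Or.inr (Or.inr (Or.inr hTT)))))
  have u := EnS_or7 (g := g) hδ S (fun q r n => ∃ i ∈ Icc 1 (nst g), TAs g i q r n)
    (fun q r n => ∃ i ∈ Icc 1 (nst g), TAr g δ i q r n)
    (fun q r n => ∃ i ∈ Icc 1 (nst g), TAf g δ i q r n)
    (fun q r n => ∃ i ∈ Icc 1 (nst g), TAo g i q r n)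
    (fun q r n => (∃ i ∈ Icc 1 (nst g), ∃ s ∈ Ioc i (nst g), LkD g δ i s q r n) ∨
        (∃ i ∈ Icc 1 (nst g), ∃ s ∈ Ioc i (nst g), LkD g δ i s r q (-n)))
    (fun q r n => ∃ i ∈ Icc 1 (nst g), (TAj g i q r n ∧ (z g i : ℝ) < Dl g q r)) (TS g)
  have v := EnS_or g hδ S
    (fun q r n => ∃ i ∈ Icc 1 (nst g), ∃ s ∈ Ioc i (nst g), LkD g δ i s q r n)
    (fun q r n => ∃ i ∈ Icc 1 (nst g), ∃ s ∈ Ioc i (nst g), LkD g δ i s r q (-n))
  have w : EnS g S δ (fun q r n => ∃ i ∈ Icc 1 (nst g), ∃ s ∈ Ioc i (nst g),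
      LkD g δ i s r q (-n)) = EnS g S δ (fun q r n => ∃ i ∈ Icc 1 (nst g),
      ∃ s ∈ Ioc i (nst g), LkD g δ i s q r n) :=
    (EnS_swap S δ (fun q r n => ∃ i ∈ Icc 1 (nst g), ∃ s ∈ Ioc i (nst g),
      LkD g δ i s q r n)).symm
  rw [w] at v
  linarith

theorem BM_num {C₁ C₂ C₃ C₄ C₅ C₆ Cf Φ e e1 e2 e3 e4 e5 e6 ef : ℝ} (h0 : 0 ≤ Φ) (h1 : Φ ≤ 1)
    (g1 : e1 ≤ C₁ * Φ) (g2 : e2 ≤ C₂ * Φ) (g3 : e3 ≤ C₃ * Φ) (g4 : e4 ≤ C₄ * Φ)
    (g5 : e5 ≤ C₅ * Φ) (g6 : e6 ≤ C₆ * Φ) (gf : ef ≤ Cf * 2)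
    (h : e ≤ e1 + (e2 + (e3 + (e6 + (2 * e4 + (ef + e5)))))) :
    e ≤ 16 + (|C₁| + (|C₂| + (|C₃| + (2 * |C₄| + (|C₅| + (|C₆| + 2 * Cf)))))) := by
  have key : ∀ C : ℝ, C * Φ ≤ |C| := fun C => by
    calc C * Φ ≤ |C| * Φ := mul_le_mul_of_nonneg_right (le_abs_self C) h0
      _ ≤ |C| * 1 := mul_le_mul_of_nonneg_left h1 (abs_nonneg C)
      _ = |C| := mul_one _
  have b1 := key C₁
  have b2 := key C₂
  have b3 := key C₃
  have b4 := key C₄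
  have b5 := key C₅
  have b6 := key C₆
  linarith

/-- **The pieces give the full block M.** -/
theorem bm_of_parts {γ : ℝ} {δ : Cfg → ℕ → ℕ → ℝ} (hδ : ∀ g, Om (δ g)) (hS : PSf γ δ)
    (hR : PRig γ δ) (hF : PFree γ δ) (hO : POld γ δ) (hL : PLk γ δ) (hT : PTs γ δ) : BM γ := by
  obtain ⟨Cf, hCf, hfar⟩ := EnS_TA_far
  unfold PSf EvE at hS
  unfold PRig EvE at hR
  unfold PFree EvE at hF
  unfold POld EvE at hO
  unfold PLk EvE at hL
  unfold PTs EvE at hT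
  unfold BM
  refine (((hS.and (hR.and (hF.and (hL.and (hT.and hO))))).and ev_mass_V1T).and
    (ev_numOK.and ev_C2)).mono ?_
  rintro K Js ⟨⟨⟨⟨C₁, X₁, h1⟩, ⟨C₂, X₂, h2⟩, ⟨C₃, X₃, h3⟩, ⟨C₄, X₄, h4⟩, ⟨C₅, X₅, h5⟩,
    ⟨C₆, X₆, h6⟩⟩, hm⟩, hNum, hC2⟩
  refine ⟨16 + (|C₁| + (|C₂| + (|C₃| + (2 * |C₄| + (|C₅| + (|C₆| + 2 * Cf)))))),
    max 16 (max Js (max X₁ (max X₂ (max X₃ (max X₄ (max X₅ X₆)))))), ?_⟩
  intro g hK hγ hJs hX hA
  simp only [max_le_iff] at hX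
  obtain ⟨hX16, hXJ, hX1, hX2, hX3, hX4, hX5, hX6⟩ := hX
  have hXJ' : g.Js ≤ g.X := by rw [hJs]; exact hXJ
  have hN : NumOK g.K g.Js := by rw [hK, hJs]; exact hNum
  have hJ : JsOK g.K g.Js := hN.js
  have hV1 : VT g 1 := hA.vt hX16
  have hVs : g.V ⊆ Icc 1 (N g) := hV1.sub
  have hC2' : 2 ≤ g.K.C2 := by rw [hK]; exact hC2
  have hSV : V1 g ⊆ g.V := fun q hq => (mem_filter.1 (V1_sub g hq)).1
  have hΦ0 : 0 ≤ ∑ q ∈ V1 g, f g q := sum_nonneg fun q _ => f_nonneg g q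
  have hΦ1 : ∑ q ∈ V1 g, f g q ≤ 1 := (sum_le_sum_of_subset_of_nonneg hSV
    fun q _ _ => f_nonneg g q).trans hV1.sum_f_le
  have hmass : (1 : ℝ) / 16 ≤ ∑ q ∈ V1 g, f g q := hm g hK hJs 1 hV1
  refine ⟨V1 g, V1_sub g, ?_, δ g, hδ g, ?_⟩
  · have h0 : (16 : ℝ) ≤ 16 + (|C₁| + (|C₂| + (|C₃| + (2 * |C₄| + (|C₅| + (|C₆| + 2 * Cf)))))) := by
      have a1 := abs_nonneg C₁
      have a2 := abs_nonneg C₂
      have a3 := abs_nonneg C₃
      have a4 := abs_nonneg C₄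
      have a5 := abs_nonneg C₅
      have a6 := abs_nonneg C₆
      linarith
    calc (1 : ℝ) = 16 * (1 / 16) := by norm_num
      _ ≤ 16 * ∑ q ∈ V1 g, f g q := mul_le_mul_of_nonneg_left hmass (by norm_num)
      _ ≤ _ := mul_le_mul_of_nonneg_right h0 hΦ0
  · exact BM_num hΦ0 hΦ1 (h1 g hK hγ hJs hX1 hA) (h2 g hK hγ hJs hX2 hA)
      (h3 g hK hγ hJs hX3 hA) (h4 g hK hγ hJs hX4 hA) (h5 g hK hγ hJs hX5 hA)
      (h6 g hK hγ hJs hX6 hA)
      (EnS_far_sum hCf hJ hXJ' hC2' (hδ g) hΦ0 hΦ1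
        (fun i => hfar g hN.e1 hJ hXJ' hVs (δ g) (hδ g) i (V1 g) Subset.rfl))
      (EnS_BM_cover hJ hXJ' hVs (hδ g) hSV)

end Vale.P028.SK
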